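import Vale.Agent.P228.H615.Groups
import Vale.Agent.P228.H951.Spec

/-!
# Compact groups are generated by `p`-adic one-parameter subgroups (from `CharStatement`)

* `exists_padic_hom_char`: for a continuous character `χ ≠ 1` of a compact commutative group `A`
  there are a prime `p` and a continuous `φ : ℤ_p → A` with `χ ∘ φ ≠ 1`;
* `mem_of_homs_cpt`: a closed subgroup of a compact group containing the images of all continuous
  `φ : ℤ_p → K` is everything.
-/

set_option autoImplicit false
set_option linter.all false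

namespace Vale.Agent.P228.H796.Cpt

open Filter Topology Set

universe u

/-- characters of compact commutative groups, multiplicative form -/
theorem exists_char (hC : H951.CharStatement.{u}) (A : Type u) [CommGroup A] [TopologicalSpace A]
    [IsTopologicalGroup A] [CompactSpace A] [T2Space A] {a : A} (ha : a ≠ 1) :
    ∃ χ : A →* Circle, Continuous χ ∧ χ a ≠ 1 := by
  haveI : T2Space (Additive A) := ‹T2Space A›
  obtain ⟨χ, hχ, h1⟩ := hC (Additive A) (Additive.ofMul a) (fun h => ha (by
    have := congrArg Additive.toMul h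
    simpa using this))
  let e : A →* Multiplicative (Additive A) :=
    { toFun := fun a => Multiplicative.ofAdd (Additive.ofMul a)
      map_one' := rfl
      map_mul' := fun _ _ => rfl }
  have he : Continuous e := continuous_id
  exact ⟨χ.comp e, hχ.comp he, h1⟩

/-! ### closed subgroups of the circle -/

theorem exists_far (H : Subgroup Circle) {z : Circle} (hz : z ∈ H) (h1 : z ≠ 1) :
    ∃ w ∈ H, (1 / 2 : ℝ) ≤ ‖(w : ℂ) - 1‖ := by
  by_contra hcon
  push Not at hcon
  have h2 : ∀ n : ℕ, (3 / 2 : ℝ) ^ n * ‖(z : ℂ) - 1‖ ≤ ‖((z ^ (2 ^ n) : Circle) : ℂ) - 1‖ := by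
    intro n
    induction n with
    | zero => simp
    | succ n ih =>
      set w : Circle := z ^ (2 ^ n) with hw
      have hwH : w ∈ H := H.pow_mem hz _
      have h3 : z ^ (2 ^ (n + 1)) = w * w := by rw [hw, ← pow_add]; congr 1; ring
      have h4 : (3 / 2 : ℝ) ≤ ‖(w : ℂ) + 1‖ := by
        have h5 : ‖(2 : ℂ)‖ ≤ ‖(w : ℂ) + 1‖ + ‖(w : ℂ) - 1‖ := by
          have : (2 : ℂ) = ((w : ℂ) + 1) - ((w : ℂ) - 1) := by ring
          calc ‖(2 : ℂ)‖ = ‖((w : ℂ) + 1) - ((w : ℂ) - 1)‖ := by rw [← this]
            _ ≤ _ := norm_sub_le _ _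
        have h6 : ‖(2 : ℂ)‖ = 2 := by simp
        have h7 := hcon w hwH
        linarith
      have h8 : ((w * w : Circle) : ℂ) - 1 = ((w : ℂ) + 1) * ((w : ℂ) - 1) := by
        rw [Circle.coe_mul]; ring
      rw [h3, h8, norm_mul, pow_succ]
      have h9 : 0 ≤ ‖(w : ℂ) - 1‖ := norm_nonneg _
      have h10 : 0 ≤ ‖(z : ℂ) - 1‖ := norm_nonneg _
      nlinarith
  have h3 : 0 < ‖(z : ℂ) - 1‖ := by
    rw [norm_pos_iff, sub_ne_zero]
    intro h
    exact h1 (Subtype.ext (by simpa using h))
  obtain ⟨n, hn⟩ := pow_unbounded_of_one_lt (1 / ‖(z : ℂ) - 1‖) (by norm_num : (1 : ℝ) < 3 / 2)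
  have h4 := hcon _ (H.pow_mem hz (2 ^ n))
  have h5 := h2 n
  rw [div_lt_iff₀ h3] at hn
  linarith

/-- a closed proper subgroup of the circle is countable -/
theorem countable_of_closed {H : Subgroup Circle} (hH : IsClosed (H : Set Circle)) (hne : H ≠ ⊤) :
    (H : Set Circle).Countable := by
  let H' : AddSubgroup ℝ :=
    { carrier := {x | Circle.exp x ∈ H}
      add_mem' := fun {a b} ha hb => by
        show Circle.exp (a + b) ∈ H
        rw [Circle.exp_add]
        exact H.mul_mem ha hb
      zero_mem' := by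
        show Circle.exp 0 ∈ H
        rw [Circle.exp_zero]
        exact H.one_mem
      neg_mem' := fun {a} ha => by
        show Circle.exp (-a) ∈ H
        rw [Circle.exp_neg]
        exact H.inv_mem ha }
  rcases AddSubgroup.dense_or_cyclic H' with hd | ⟨a, ha⟩
  · exfalso
    apply hne
    have h1 : Dense (Circle.exp '' (H' : Set ℝ)) :=
      Circle.exp_surjective.denseRange.dense_image Circle.exp.continuous hd
    have h2 : Circle.exp '' (H' : Set ℝ) ⊆ (H : Set Circle) := by
      rintro _ ⟨x, hx, rfl⟩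
      exact hx
    have h3 := (h1.mono h2).closure_eq
    rw [hH.closure_eq] at h3
    exact SetLike.coe_injective (by rw [h3]; rfl)
  · have h1 : (H : Set Circle) ⊆ range fun n : ℤ => Circle.exp (n • a) := by
      intro z hz
      obtain ⟨x, rfl⟩ := Circle.exp_surjective z
      have hx : x ∈ H' := hz
      rw [ha, AddSubgroup.mem_closure_singleton] at hx
      obtain ⟨n, hn⟩ := hx
      exact ⟨n, by simp only [hn]⟩
    exact (countable_range _).mono h1

/-- roots of unity are dense -/
theorem eq_univ_of_roots {D : Set Circle} (hD : IsClosed D)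
    (h : ∀ z : Circle, ∀ q : ℕ, 0 < q → z ^ q = 1 → z ∈ D) : D = univ := by
  have h1 : DenseRange fun r : ℚ => Circle.exp (2 * Real.pi * (r : ℝ)) := by
    have h2 : Function.Surjective fun x : ℝ => Circle.exp (2 * Real.pi * x) := by
      intro z
      obtain ⟨x, rfl⟩ := Circle.exp_surjective z
      refine ⟨x / (2 * Real.pi), ?_⟩
      show Circle.exp (2 * Real.pi * (x / (2 * Real.pi))) = _
      congr 1
      have := Real.pi_pos
      field_simp
    have h3 : Continuous fun x : ℝ => Circle.exp (2 * Real.pi * x) :=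
      Circle.exp.continuous.comp (continuous_const.mul continuous_id)
    exact h2.denseRange.comp Rat.denseRange_cast h3
  have h2 : (range fun r : ℚ => Circle.exp (2 * Real.pi * (r : ℝ))) ⊆ D := by
    rintro _ ⟨r, rfl⟩
    refine h _ r.den r.pos ?_
    have h3 : (Circle.exp (2 * Real.pi * (r : ℝ))) ^ r.den =
        Circle.exp (2 * Real.pi * (r.num : ℤ)) := by
      have h4 : ∀ n : ℕ, ∀ x : ℝ, (Circle.exp x) ^ n = Circle.exp (n * x) := by
        intro n x
        induction n with
        | zero => simp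
        | succ n ih =>
          rw [pow_succ, ih, ← Circle.exp_add]
          congr 1
          push_cast
          ring
      rw [h4]
      congr 1
      have h5 : (r : ℝ) * r.den = (r.num : ℝ) := by
        exact_mod_cast Rat.mul_den_eq_num r
      push_cast
      linear_combination (2 * Real.pi) * h5
    rw [h3]
    exact Circle.exp_two_pi_mul_int _
  have h3 := (h1.mono h2).closure_eq
  rwa [hD.closure_eq] at h3

/-! ### the minimal closed subgroup not killed by a character -/

section Comm

variable {A : Type u} [CommGroup A] [TopologicalSpace A] [IsTopologicalGroup A] [CompactSpace A]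
  [T2Space A]

/-- closed subgroups on which `χ` is nontrivial -/
def Fam (χ : A →* Circle) : Set (Set A) :=
  {s | ∃ B : Subgroup A, (B : Set A) = s ∧ IsClosed s ∧ ∃ x ∈ B, χ x ≠ 1}

theorem exists_minimal (χ : A →* Circle) (hχ : Continuous χ) (h : ∃ g, χ g ≠ 1) :
    ∃ s, Minimal (· ∈ Fam χ) s := by
  have htop : (univ : Set A) ∈ Fam χ := by
    obtain ⟨g, hg⟩ := h
    exact ⟨⊤, rfl, isClosed_univ, g, trivial, hg⟩
  obtain ⟨m, -, hm⟩ := zorn_superset_nonempty (Fam χ) (fun c hc hch hne => by
    have hN : Nonempty c := hne.to_subtype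
    let B : Subgroup A := sInf {B : Subgroup A | (B : Set A) ∈ c}
    have hBc : (B : Set A) = ⋂₀ c := by
      ext x
      simp only [B, SetLike.mem_coe, Subgroup.mem_sInf, mem_ofPred_eq, mem_sInter]
      constructor
      · intro hx t ht
        obtain ⟨B', hB', -⟩ := hc ht
        rw [← hB']
        exact hx B' (hB' ▸ ht)
      · intro hx B' hB'
        exact hx _ hB'
    have hcl : IsClosed (⋂₀ c) := isClosed_sInter fun t ht => by
      obtain ⟨B', -, h2, -⟩ := hc ht
      exact h2
    have hfar : IsClosed {x : A | (1 / 2 : ℝ) ≤ ‖((χ x : Circle) : ℂ) - 1‖} :=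
      isClosed_le continuous_const
        ((continuous_subtype_val.comp hχ).sub continuous_const).norm
    have hne2 : (⋂ i : c, (i : Set A) ∩ {x : A | (1 / 2 : ℝ) ≤ ‖((χ x : Circle) : ℂ) - 1‖}).Nonempty := by
      refine IsCompact.nonempty_iInter_of_directed_nonempty_isCompact_isClosed _ ?_ ?_ ?_ ?_
      · intro i j
        rcases hch.total i.2 j.2 with hij | hij
        · exact ⟨i, Subset.rfl, inter_subset_inter_left _ hij⟩
        · exact ⟨j, inter_subset_inter_left _ hij, Subset.rfl⟩
      · rintro ⟨t, ht⟩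
        obtain ⟨B', hB', -, x, hx, hx1⟩ := hc ht
        obtain ⟨w, hw, hw1⟩ := exists_far (B'.map χ) (z := χ x) ⟨x, hx, rfl⟩ hx1
        obtain ⟨y, hy, rfl⟩ := hw
        exact ⟨y, (hB' ▸ hy : y ∈ t), hw1⟩
      · rintro ⟨t, ht⟩
        obtain ⟨B', -, h2, -⟩ := hc ht
        exact (h2.inter hfar).isCompact
      · rintro ⟨t, ht⟩
        obtain ⟨B', -, h2, -⟩ := hc ht
        exact h2.inter hfar
    obtain ⟨x, hx⟩ := hne2
    rw [mem_iInter] at hx
    refine ⟨⋂₀ c, ⟨B, hBc, hcl, x, ?_, ?_⟩, fun s hs => sInter_subset_of_mem hs⟩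
    · have : x ∈ ⋂₀ c := mem_sInter.2 fun t ht => (hx ⟨t, ht⟩).1
      rw [← hBc] at this
      exact this
    · intro h1
      have h2 := (hx hN.some).2
      simp only [mem_ofPred_eq, h1] at h2
      norm_num at h2) univ htop
  exact ⟨m, hm⟩

/-- no character of the minimal subgroup is surjective -/
theorem not_surjective {χ : A →* Circle} (hχ : Continuous χ) {B : Subgroup A}
    (hB : Minimal (· ∈ Fam χ) (B : Set A)) (ψ : B →* Circle) (hψ : Continuous ψ) :
    ¬ Function.Surjective ψ := by
  intro hs
  obtain ⟨B', hB', hcl, x, hx, hx1⟩ := hB.prop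
  have hBB : B' = B := SetLike.coe_injective hB'
  subst hBB
  have : CompactSpace B' := isCompact_iff_compactSpace.1 hcl.isCompact
  -- the subgroups `ψ ^ q = 1`
  have h1 : ∀ b : B', ∀ q : ℕ, 0 < q → ψ b ^ q = 1 → χ (b : A) = 1 := by
    intro b q hq hb
    by_contra hcon
    let C : Subgroup A := ((ψ.comp (powMonoidHom q)).ker).map B'.subtype
    have hC : (C : Set A) ∈ Fam χ := by
      refine ⟨C, rfl, ?_, b, ?_, hcon⟩
      · have h2 : IsClosed (((ψ.comp (powMonoidHom q)).ker : Subgroup B') : Set B') := by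
          have h3 : (((ψ.comp (powMonoidHom q)).ker : Subgroup B') : Set B') =
              (fun b : B' => ψ (b ^ q)) ⁻¹' {1} := by
            ext y
            simp [MonoidHom.mem_ker]
          rw [h3]
          exact isClosed_singleton.preimage (hψ.comp (continuous_pow q))
        exact hcl.isClosedEmbedding_subtypeVal.isClosedMap _ h2
      · refine ⟨b, ?_, rfl⟩
        show ψ (b ^ q) = 1
        rw [map_pow]
        exact hb
    have hle : (C : Set A) ⊆ (B' : Set A) := by
      rintro _ ⟨y, -, rfl⟩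
      exact y.2
    have h2 := hB.le_of_le hC hle
    obtain ⟨y, hy⟩ := hs (Circle.exp (Real.pi / q))
    obtain ⟨y', hy', hyy⟩ := h2 y.2
    have h3 : y' = y := Subtype.ext hyy
    subst h3
    have h4 : ψ (y' ^ q) = 1 := hy'
    rw [map_pow, hy] at h4
    have h5 : ∀ n : ℕ, ∀ x : ℝ, (Circle.exp x) ^ n = Circle.exp (n * x) := by
      intro n x
      induction n with
      | zero => simp
      | succ n ih =>
        rw [pow_succ, ih, ← Circle.exp_add]
        congr 1
        push_cast
        ring
    rw [h5] at h4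
    have h6 : (q : ℝ) * (Real.pi / q) = Real.pi := by
      have : (q : ℝ) ≠ 0 := by exact_mod_cast hq.ne'
      field_simp
    rw [h6] at h4
    exact Circle.exp_pi_ne_one h4
  -- the image of the kernel of `χ` on `B'`
  have h2 : ψ '' {b : B' | χ (b : A) = 1} = univ := by
    apply eq_univ_of_roots
    · have h3 : IsClosed {b : B' | χ (b : A) = 1} :=
        isClosed_eq (hχ.comp continuous_subtype_val) continuous_const
      exact (h3.isCompact.image hψ).isClosed
    · intro z q hq hz
      obtain ⟨b, rfl⟩ := hs z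
      exact ⟨b, h1 b q hq hz, rfl⟩
  obtain ⟨d, hd, hd1⟩ : ψ ⟨x, hx⟩ ∈ ψ '' {b : B' | χ (b : A) = 1} := by
    rw [h2]; trivial
  have h3 : χ ((⟨x, hx⟩ * d⁻¹ : B') : A) = 1 := by
    refine h1 _ 1 one_pos ?_
    rw [pow_one, map_mul, map_inv, hd1, mul_inv_cancel]
  apply hx1
  have h4 : χ (x * (d : A)⁻¹) = 1 := h3
  rw [map_mul, map_inv] at h4
  have h5 : χ (d : A) = 1 := hd
  rw [h5, inv_one, mul_one] at h4
  exact h4

/-- **the character form** -/
theorem exists_padic_hom_char (hC : H951.CharStatement.{u}) (χ : A →* Circle) (hχ : Continuous χ)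
    (h : ∃ g, χ g ≠ 1) :
    ∃ (p : ℕ) (_ : Fact p.Prime) (φ : Multiplicative ℤ_[p] →* A), Continuous φ ∧
      ∃ u, χ (φ u) ≠ 1 := by
  obtain ⟨s, hs⟩ := exists_minimal χ hχ h
  obtain ⟨B, rfl, hcl, x, hx, hx1⟩ := hs.prop
  have hBc : CompactSpace B := isCompact_iff_compactSpace.1 hcl.isCompact
  have htd : TotallyDisconnectedSpace B := by
    rw [totallyDisconnectedSpace_iff_connectedComponent_singleton]
    intro a
    refine Subset.antisymm ?_ (singleton_subset_iff.2 mem_connectedComponent)
    intro b hb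
    rw [mem_singleton_iff]
    by_contra hne
    have hne' : b * a⁻¹ ≠ 1 := fun h => hne (mul_inv_eq_one.1 h)
    obtain ⟨ψ, hψ, hψ1⟩ := exists_char hC B hne'
    apply hψ1
    have hr : IsClosed ((ψ.range : Subgroup Circle) : Set Circle) := by
      rw [MonoidHom.coe_range]
      exact (isCompact_range hψ).isClosed
    have hnt : ψ.range ≠ ⊤ := by
      intro h
      exact not_surjective hχ hs ψ hψ (MonoidHom.range_eq_top.1 h)
    have hct := countable_of_closed hr hnt
    have htd := hct.isTotallyDisconnected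
    have h1 : (ψ '' connectedComponent a).Subsingleton := by
      apply htd
      · rintro _ ⟨y, -, rfl⟩
        exact ⟨y, rfl⟩
      · exact isPreconnected_connectedComponent.image _ hψ.continuousOn
    have h2 : ψ b = ψ a := h1 ⟨b, hb, rfl⟩ ⟨a, mem_connectedComponent, rfl⟩
    rw [map_mul, map_inv, h2, mul_inv_cancel]
  by_contra hcon
  push Not at hcon
  let S : Subgroup B := (χ.comp B.subtype).ker
  have hS : IsClosed (S : Set B) := by
    have h3 : (S : Set B) = (fun b : B => χ (b : A)) ⁻¹' {1} := by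
      ext y
      simp [S, MonoidHom.mem_ker]
    rw [h3]
    exact isClosed_singleton.preimage (hχ.comp continuous_subtype_val)
  have h4 : (⟨x, hx⟩ : B) ∈ S := by
    refine H615.mem_of_homs hS (fun p hp φ hφ => ?_) _
    exact hcon p hp (B.subtype.comp φ) (continuous_subtype_val.comp hφ) (Multiplicative.ofAdd 1)
  exact hx1 h4

end Comm

/-- **block CPT, strong form**: a closed subgroup of a compact group which contains the images of all
continuous homomorphisms `ℤ_p → K`, all primes `p`, is the whole group. -/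
theorem mem_of_homs_cpt (hC : H951.CharStatement.{u}) {K : Type u} [Group K] [TopologicalSpace K]
    [IsTopologicalGroup K] [CompactSpace K] [T2Space K] {S : Subgroup K}
    (hS : IsClosed (S : Set K))
    (h : ∀ (p : ℕ) [Fact p.Prime] (φ : Multiplicative ℤ_[p] →* K), Continuous φ →
      ∀ u, φ u ∈ S) (g : K) : g ∈ S := by
  by_contra hg
  let A : Subgroup K := (Subgroup.zpowers g).topologicalClosure
  have hAc : IsClosed (A : Set K) := Subgroup.isClosed_topologicalClosure _
  have hcp : CompactSpace A := isCompact_iff_compactSpace.1 hAc.isCompact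
  letI : CommGroup A := Subgroup.commGroupTopologicalClosure (Subgroup.zpowers g)
    (fun x y => by
      obtain ⟨x, m, rfl⟩ := x
      obtain ⟨y, n, rfl⟩ := y
      apply Subtype.ext
      show g ^ m * g ^ n = g ^ n * g ^ m
      rw [← zpow_add, ← zpow_add, add_comm])
  haveI : IsTopologicalGroup A := Subgroup.instIsTopologicalGroupSubtypeMem A
  let T : Subgroup A := S.subgroupOf A
  have hT : IsClosed (T : Set A) := hS.preimage continuous_subtype_val
  have hgA : g ∈ A := Subgroup.le_topologicalClosure _ (Subgroup.mem_zpowers g)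
  haveI : T2Space (A ⧸ T) := by
    have : IsClosed (T : Set A) := hT
    infer_instance
  have hne : ((⟨g, hgA⟩ : A) : A ⧸ T) ≠ 1 := by
    intro h1
    rw [QuotientGroup.eq_one_iff] at h1
    exact hg h1
  obtain ⟨χ₀, hχ₀, hχ₁⟩ := exists_char hC (A ⧸ T) hne
  let χ : A →* Circle := χ₀.comp (QuotientGroup.mk' T)
  have hχ : Continuous χ := hχ₀.comp continuous_quot_mk
  obtain ⟨p, hp, φ, hφ, u, hu⟩ := exists_padic_hom_char hC χ hχ ⟨⟨g, hgA⟩, hχ₁⟩
  have h2 : ((φ u : A) : K) ∈ S := h p (A.subtype.comp φ) (continuous_subtype_val.comp hφ) u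
  apply hu
  have h3 : (QuotientGroup.mk' T) (φ u) = 1 := by
    rw [QuotientGroup.mk'_apply, QuotientGroup.eq_one_iff]
    exact h2
  show χ₀ ((QuotientGroup.mk' T) (φ u)) = 1
  rw [h3, map_one]

/-- block CPT -/
theorem cpt (hC : H951.CharStatement.{u}) : H951.CptStatement.{u} := by
  intro K _ _ _ _ _ hK
  by_contra hcon
  push Not at hcon
  obtain ⟨g, hg⟩ := exists_ne (1 : K)
  apply hg
  have h1 : g ∈ (⊥ : Subgroup K) := by
    refine mem_of_homs_cpt hC (S := ⊥) ?_ (fun p hp φ hφ u => ?_) g
    · rw [Subgroup.coe_bot]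
      exact isClosed_singleton
    · exact Subgroup.mem_bot.2 (hcon p hp φ hφ u)
  exact Subgroup.mem_bot.1 h1

end Vale.Agent.P228.H796.Cpt
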