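import Vale.Agent.P228.H796.Cpt
import Vale.Agent.P228.H615.Layer

/-! CPT in the literal form `H615.Layer.CptStrong`. -/

set_option autoImplicit false

namespace Vale.Agent.P228.H796.Cpt

universe u

theorem cptStrong (hC : H951.CharStatement.{u}) : H615.Layer.CptStrong.{u} := by
  intro K _ _ _ _ _ S hS h
  exact (Subgroup.eq_top_iff' S).2 fun g => mem_of_homs_cpt hC hS h g

end Vale.Agent.P228.H796.Cpt
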