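import Vale.Agent.P228.MathlibUsed
import Mathlib

/-!
# Compact open subgroups of totally disconnected locally compact groups
-/

namespace Vale.Agent.P228.H796

open Set Topology Pointwise

variable {G : Type*} [Group G] [TopologicalSpace G] [IsTopologicalGroup G]

/-- a compact open neighbourhood is stable under a neighbourhood of `1` -/
theorem exists_stable {V : Set G} (hVc : IsCompact V) (hVo : IsOpen V) :
    ∀ᶠ g in 𝓝 (1 : G), ∀ x ∈ V, g * x ∈ V := by
  refine hVc.eventually_forall_of_forall_eventually (x₀ := (1 : G)) (P := fun g x => g * x ∈ V) ?_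
  intro x hx
  have h1 : Continuous fun z : G × G => z.1 * z.2 := continuous_mul
  exact h1.continuousAt.preimage_mem_nhds (hVo.mem_nhds (by show (1 : G) * x ∈ V; rwa [one_mul]))

/-- **van Dantzig** -/
theorem exists_compact_open [T2Space G] [LocallyCompactSpace G] [TotallyDisconnectedSpace G]
    {U : Set G} (hU : U ∈ 𝓝 (1 : G)) :
    ∃ K : Subgroup G, (K : Set G) ⊆ U ∧ IsOpen (K : Set G) ∧ IsCompact (K : Set G) := by
  obtain ⟨C, hC, hCU, hCc⟩ := LocallyCompactSpace.local_compact_nhds (1 : G) U hU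
  obtain ⟨V, hV, h1V, hVC⟩ := loc_compact_Haus_tot_disc_of_zero_dim.mem_nhds_iff.1
    hC
  have hVc : IsCompact V := hCc.of_isClosed_subset hV.isClosed hVC
  let K : Subgroup G :=
    { carrier := {g | (∀ x ∈ V, g * x ∈ V) ∧ ∀ x ∈ V, g⁻¹ * x ∈ V}
      one_mem' := by simp
      mul_mem' := by
        rintro a b ⟨ha, ha'⟩ ⟨hb, hb'⟩
        refine ⟨fun x hx => ?_, fun x hx => ?_⟩
        · rw [mul_assoc]; exact ha _ (hb _ hx)
        · rw [mul_inv_rev, mul_assoc]; exact hb' _ (ha' _ hx)
      inv_mem' := by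
        rintro a ⟨ha, ha'⟩
        refine ⟨ha', fun x hx => ?_⟩
        rw [inv_inv]; exact ha x hx }
  have hKV : (K : Set G) ⊆ V := by
    rintro g ⟨hg, -⟩
    have := hg 1 h1V
    rwa [mul_one] at this
  have hKo : IsOpen (K : Set G) := by
    apply Subgroup.isOpen_of_mem_nhds K (g := 1)
    have h1 := exists_stable hVc hV.isOpen
    have h2 : ∀ᶠ g in 𝓝 (1 : G), ∀ x ∈ V, g⁻¹ * x ∈ V := by
      have h3 : Filter.Tendsto (fun g : G => g⁻¹) (𝓝 1) (𝓝 1) := by
        simpa using (continuous_inv (G := G)).tendsto 1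
      exact h3.eventually h1
    exact h1.and h2
  refine ⟨K, hKV.trans (hVC.trans hCU), hKo, hVc.of_isClosed_subset ?_ hKV⟩
  exact Subgroup.isClosed_of_isOpen K hKo

end Vale.Agent.P228.H796
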