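import Vale.Agent.P228.MathlibUsed
import Mathlib

/-!
# Every nontrivial element of a profinite abelian group generates a nontrivial `p`-adic subgroup
-/

namespace Vale.Agent.P228.H796

open Filter Topology Set

section

variable {A : Type*} [CommGroup A] [TopologicalSpace A] [IsTopologicalGroup A] [CompactSpace A]
  [T2Space A] [TotallyDisconnectedSpace A]

theorem exists_openSub {x : A} (hx : x ≠ 1) : ∃ N : OpenSubgroup A, x ∉ N := by
  obtain ⟨N, hN⟩ := ProfiniteGrp.exist_openNormalSubgroup_sub_open_nhds_of_one (G := A)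
    (U := {x}ᶜ) isOpen_compl_singleton (by simpa using hx.symm)
  exact ⟨N.toOpenSubgroup, fun h => hN h rfl⟩

omit [T2Space A] [TotallyDisconnectedSpace A] in
theorem pow_index_mem (N : OpenSubgroup A) : ∃ i : ℕ, i ≠ 0 ∧ ∀ x : A, x ^ i ∈ N := by
  have : Subgroup.FiniteIndex N.toSubgroup := N.finiteIndex_of_finite_quotient
  exact ⟨N.toSubgroup.index, Subgroup.FiniteIndex.index_ne_zero, fun x =>
    N.toSubgroup.pow_index_mem x⟩

omit [T2Space A] [TotallyDisconnectedSpace A] in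
theorem exists_prime (N : OpenSubgroup A) {g : A} (hg : g ∉ N) :
    ∃ p : ℕ, p.Prime ∧ ∀ t : ℕ, Nat.Coprime p t → g ^ t ∉ N := by
  obtain ⟨i, hi, h⟩ := pow_index_mem N
  let π := QuotientGroup.mk' N.toSubgroup
  have hmem : ∀ x : A, x ∈ N ↔ π x = 1 := fun x => (QuotientGroup.eq_one_iff x).symm
  have h1 : orderOf (π g) ≠ 0 := by
    intro h0
    have h2 : (π g) ^ i = 1 := by rw [← map_pow]; exact (hmem _).1 (h g)
    have h3 := orderOf_dvd_of_pow_eq_one h2
    rw [h0, zero_dvd_iff] at h3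
    exact hi h3
  have h2 : orderOf (π g) ≠ 1 := by
    rw [Ne, orderOf_eq_one_iff]
    exact fun h => hg ((hmem g).2 h)
  refine ⟨(orderOf (π g)).minFac, Nat.minFac_prime h2, fun t ht hgt => ?_⟩
  have h3 : (π g) ^ t = 1 := by rw [← map_pow]; exact (hmem _).1 hgt
  have h4 := orderOf_dvd_of_pow_eq_one h3
  have h5 : (orderOf (π g)).minFac ∣ t := (Nat.minFac_dvd _).trans h4
  have h6 : (orderOf (π g)).minFac = 1 := Nat.Coprime.eq_one_of_dvd ht h5
  exact (Nat.minFac_prime h2).one_lt.ne' h6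

/-- the `p`-part of an element -/
theorem exists_pPart {g : A} (hg : g ≠ 1) : ∃ p : ℕ, p.Prime ∧ ∃ h : A, h ≠ 1 ∧
    h ∈ closure (Set.range fun k : ℕ => g ^ k) ∧
    ∀ N : OpenSubgroup A, ∃ s : ℕ, h ^ (p ^ s) ∈ N := by
  obtain ⟨N, hN⟩ := exists_openSub hg
  obtain ⟨p, hp, hpN⟩ := exists_prime N hN
  let t : ℕ → ℕ := fun k => ordCompl[p] k.factorial
  have ht : ∀ k, Nat.Coprime p (t k) := fun k => Nat.coprime_ordCompl hp (Nat.factorial_ne_zero k)
  obtain ⟨h, hh⟩ := exists_clusterPt_of_compactSpace (map (fun k => g ^ t k) atTop)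
  have hcl : MapClusterPt h atTop (fun k => g ^ t k) := hh
  have hfr : ∀ U ∈ 𝓝 h, ∃ᶠ k in atTop, g ^ t k ∈ U := fun U hU => hcl.frequently hU
  refine ⟨p, hp, h, ?_, ?_, fun N' => ?_⟩
  · rintro rfl
    obtain ⟨k, hk⟩ := (hfr N (N.isOpen.mem_nhds N.one_mem)).exists
    exact hpN _ (ht k) hk
  · rw [mem_closure_iff_nhds]
    intro U hU
    obtain ⟨k, hk⟩ := (hfr U hU).exists
    exact ⟨_, hk, t k, rfl⟩
  · obtain ⟨i, hi, hiN⟩ := pow_index_mem N'
    let U : Set A := {x | h⁻¹ * x ∈ N'}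
    have hU : U ∈ 𝓝 h := by
      have h1 : IsOpen U := N'.isOpen.preimage (by fun_prop : Continuous fun x : A => h⁻¹ * x)
      exact h1.mem_nhds (by show h⁻¹ * h ∈ N'; rw [inv_mul_cancel]; exact N'.one_mem)
    obtain ⟨k, hk, hki⟩ := ((hfr U hU).and_eventually (eventually_ge_atTop i)).exists
    refine ⟨i.factorization p, ?_⟩
    have hdvd : i ∣ t k * p ^ i.factorization p := by
      have h1 : ordCompl[p] i ∣ t k :=
        Nat.ordCompl_dvd_ordCompl_of_dvd (Nat.dvd_factorial (Nat.pos_of_ne_zero hi) hki) p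
      calc i = ordCompl[p] i * ordProj[p] i := by rw [mul_comm, Nat.ordProj_mul_ordCompl_eq_self]
        _ ∣ t k * p ^ i.factorization p := Nat.mul_dvd_mul h1 dvd_rfl
    obtain ⟨c, hc⟩ := hdvd
    have h2 : (g ^ t k) ^ (p ^ i.factorization p) ∈ N' := by
      rw [← pow_mul, hc, pow_mul]
      exact pow_mem (hiN g) c
    have h3 : (h⁻¹ * g ^ t k) ^ (p ^ i.factorization p) ∈ N' := pow_mem hk _
    have h4 : h ^ (p ^ i.factorization p) = (g ^ t k) ^ (p ^ i.factorization p) *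
        ((h⁻¹ * g ^ t k) ^ (p ^ i.factorization p))⁻¹ := by
      rw [mul_pow, inv_pow, mul_inv, inv_inv, mul_comm ((g ^ t k) ^ _), mul_assoc,
        inv_mul_cancel, mul_one]
    rw [h4]
    exact N'.mul_mem h2 (N'.inv_mem h3)

/-- extension of `n ↦ h ^ n` to the `p`-adic integers -/
theorem exists_padic (p : ℕ) [Fact p.Prime] {h : A}
    (hh : ∀ N : OpenSubgroup A, ∃ s : ℕ, h ^ (p ^ s) ∈ N) :
    ∃ φ : ℤ_[p] → A, Continuous φ ∧ (∀ u v, φ (u + v) = φ u * φ v) ∧
      ∀ n : ℤ, φ n = h ^ n := by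
  classical
  let D : Set ℤ_[p] := Set.range (Int.cast : ℤ → ℤ_[p])
  have hD : Dense D := PadicInt.denseRange_intCast
  let f : ℤ_[p] → A := fun u => if hu : ∃ n : ℤ, (n : ℤ_[p]) = u then h ^ hu.choose else 1
  have hf : ∀ n : ℤ, f n = h ^ n := by
    intro n
    have hu : ∃ m : ℤ, (m : ℤ_[p]) = (n : ℤ_[p]) := ⟨n, rfl⟩
    have h1 : hu.choose = n := by exact_mod_cast hu.choose_spec
    simp only [f]
    rw [dif_pos hu, h1]
  have hlim : ∀ u, ∃ y, Tendsto f (𝓝[D] u) (𝓝 y) := by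
    intro u
    have hne : (𝓝[D] u).NeBot := mem_closure_iff_nhdsWithin_neBot.1 (hD u)
    obtain ⟨y, hy⟩ := exists_clusterPt_of_compactSpace (map f (𝓝[D] u))
    refine ⟨y, le_nhds_of_unique_clusterPt fun x hx => ?_⟩
    by_contra hxy
    obtain ⟨N, hN⟩ := exists_openSub (x := y⁻¹ * x) (by
      intro h1
      exact hxy (inv_mul_eq_one.1 h1).symm)
    obtain ⟨s, hs⟩ := hh N
    have hpow : ∀ n m : ℤ, ((n : ℤ_[p]) - m) ∈ Ideal.span {(p : ℤ_[p]) ^ s} →
        (h ^ n)⁻¹ * h ^ m ∈ N := by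
      intro n m hnm
      have h1 : ((n - m : ℤ) : ℤ_[p]) ∈ Ideal.span {(p : ℤ_[p]) ^ s} := by push_cast; exact hnm
      rw [← PadicInt.norm_le_pow_iff_mem_span_pow, PadicInt.norm_int_le_pow_iff_dvd] at h1
      obtain ⟨c, hc⟩ := h1
      have h2 : (h ^ n)⁻¹ * h ^ m = (h ^ (p ^ s)) ^ (-c) := by
        rw [← zpow_natCast h, ← zpow_mul, ← zpow_neg, ← zpow_add]
        congr 1
        push_cast
        linarith
      rw [h2]
      exact zpow_mem hs _
    -- the image of a neighbourhood lies in one coset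
    let W : Set ℤ_[p] := {v | v - u ∈ Ideal.span {(p : ℤ_[p]) ^ s}}
    have hW : W ∈ 𝓝 u := by
      have h1 : W = Metric.closedBall u ((p : ℝ) ^ (-(s : ℤ))) := by
        ext v
        rw [Metric.mem_closedBall, dist_eq_norm, PadicInt.norm_le_pow_iff_mem_span_pow]
        rfl
      rw [h1]
      exact Metric.closedBall_mem_nhds _ (by
        have : (0 : ℝ) < p := by exact_mod_cast (Fact.out : p.Prime).pos
        positivity)
    have hWD : W ∩ D ∈ 𝓝[D] u := inter_mem (mem_nhdsWithin_of_mem_nhds hW) self_mem_nhdsWithin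
    obtain ⟨v₀, hv₀W, n₀, rfl⟩ := hne.nonempty_of_mem hWD
    let S : Set A := {z | (h ^ n₀)⁻¹ * z ∈ N}
    have hS : IsClosed S := N.isClosed.preimage (by fun_prop : Continuous fun z : A =>
      (h ^ n₀)⁻¹ * z)
    have hmem : S ∈ map f (𝓝[D] u) := by
      refine mem_map.2 (mem_of_superset hWD ?_)
      rintro _ ⟨hv, n, rfl⟩
      show (h ^ n₀)⁻¹ * f n ∈ N
      rw [hf]
      apply hpow
      have h1 : (n₀ : ℤ_[p]) - n = (n₀ - u) - (n - u) := by ring
      rw [h1]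
      exact sub_mem hv₀W hv
    have hyS : y ∈ S := hS.closure_subset (hy.mem_closure_of_mem _ hmem)
    have hxS : x ∈ S := hS.closure_subset (hx.mem_closure_of_mem _ hmem)
    apply hN
    have h1 : y⁻¹ * x = ((h ^ n₀)⁻¹ * y)⁻¹ * ((h ^ n₀)⁻¹ * x) := by group
    rw [h1]
    exact N.mul_mem (N.inv_mem hyS) hxS
  have hφ : Continuous (extendFrom D f) := continuous_extendFrom hD hlim
  have hval : ∀ n : ℤ, extendFrom D f n = h ^ n := by
    intro n
    obtain ⟨y, hy⟩ := hlim n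
    have h1 : Tendsto f (pure (n : ℤ_[p])) (𝓝 y) :=
      hy.mono_left (pure_le_nhdsWithin ⟨n, rfl⟩)
    have h2 : Tendsto f (pure (n : ℤ_[p])) (𝓝 (f n)) := tendsto_pure_nhds f _
    rw [extendFrom_eq (hD n) hy, tendsto_nhds_unique h1 h2, hf]
  refine ⟨extendFrom D f, hφ, ?_, hval⟩
  intro u v
  have h1 : Continuous fun z : ℤ_[p] × ℤ_[p] => extendFrom D f (z.1 + z.2) := by fun_prop
  have h2 : Continuous fun z : ℤ_[p] × ℤ_[p] => extendFrom D f z.1 * extendFrom D f z.2 := by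
    fun_prop
  have h3 := h1.ext_on (hD.prod hD) h2 (by
    rintro ⟨_, _⟩ ⟨⟨n, rfl⟩, ⟨m, rfl⟩⟩
    show extendFrom D f ((n : ℤ_[p]) + m) = extendFrom D f n * extendFrom D f m
    rw [hval n, hval m, ← Int.cast_add, hval, zpow_add])
  exact congrFun h3 (u, v)

/-- **a nontrivial profinite abelian group contains a nontrivial continuous image of some
`ℤ_[p]`** -/
theorem exists_padic_hom {g : A} (hg : g ≠ 1) : ∃ (p : ℕ) (_ : Fact p.Prime) (φ : ℤ_[p] → A),
    Continuous φ ∧ (∀ u v, φ (u + v) = φ u * φ v) ∧ φ 1 ≠ 1 := by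
  obtain ⟨p, hp, h, h1, -, hN⟩ := exists_pPart hg
  have : Fact p.Prime := ⟨hp⟩
  obtain ⟨φ, hφ, hadd, hval⟩ := exists_padic p hN
  refine ⟨p, this, φ, hφ, hadd, ?_⟩
  have h2 := hval 1
  rw [Int.cast_one, zpow_one] at h2
  rw [h2]
  exact h1

end

end Vale.Agent.P228.H796
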