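import Vale.Agent.P228.H796.Pro
import Vale.Agent.P228.H951.Spec

/-!
# block PRO in the exact shape of `H951.Spec`
-/

namespace Vale.Agent.P228.H796

theorem pro : H951.ProStatement := by
  intro A _ _ _ _ _ _ _
  obtain ⟨g, hg⟩ := exists_ne (0 : A)
  have hg' : Multiplicative.ofAdd g ≠ 1 := fun h => hg (Multiplicative.ofAdd.injective h)
  haveI : TotallyDisconnectedSpace (Multiplicative A) :=
    inferInstanceAs (TotallyDisconnectedSpace A)
  haveI : T2Space (Multiplicative A) := inferInstanceAs (T2Space A)
  haveI : CompactSpace (Multiplicative A) := inferInstanceAs (CompactSpace A)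
  obtain ⟨p, hp, φ, hφ, hadd, hφ1⟩ := exists_padic_hom hg'
  have h0 : φ 0 = 1 := by
    have h1 := hadd 0 0
    rw [add_zero] at h1
    exact left_eq_mul.1 h1
  refine ⟨p, hp, { toFun := fun u => (φ u).toAdd, map_zero' := by rw [h0]; rfl,
                   map_add' := fun u v => by rw [hadd]; rfl }, ?_, ?_⟩
  · exact continuous_toAdd.comp hφ
  · intro h
    apply hφ1
    have h1 := DFunLike.congr_fun h (1 : ℤ_[p])
    exact Multiplicative.toAdd.injective h1

end Vale.Agent.P228.H796
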